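import Vale.Agent.P366.H375.N.X2d

/-! The boundary of a Kerr-Schild exterior: the defining functions `D.F` and `f + λ`. -/

open MeasureTheory Metric Filter Topology Set
open scoped ContDiff ENNReal

noncomputable section
namespace Vale.Agent.P366.KSN.X2

open Vale.Agent.P366 (pd E)
open Vale.Agent.P366.H353.N
open Vale.Agent.P366.H375 (dl HP)
open Vale.Agent.P366.Kerr (NullCone IsSlice Region Psi pt sp nul ksG indG indK lapse tng con)

variable {n : ℕ} {C : NullCone n} {lam f : E n → ℝ} {V : E (n + 1) → ℝ} {D : Stmt.Exterior n} {x y : E n} {s t : ℝ}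

/-- the components of the boundary point in the direction `z` -/
def sgi (C : NullCone n) (i : Fin n) (z : E n) : ℝ := pd i C.H z + C.U z * (z i / ‖z‖)

/-- the boundary point in the direction `z` -/
def sgm (C : NullCone n) (z : E n) : E n := WithLp.toLp 2 fun i => sgi C i z

lemma Sm.ndir (i : Fin n) : Sm fun z => z i / ‖z‖ :=
  (Sm.coord i).div Sm.norm fun _ hz => norm_ne_zero_iff.2 hz

lemma sm_sgi (C : NullCone n) (i : Fin n) : Sm (sgi C i) :=
  ((smH C).pd i).add ((smU C).mul (Sm.ndir i))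

lemma sgm_cd (C : NullCone n) {z : E n} (hz : z ≠ 0) : ContDiffAt ℝ ∞ (sgm C) z := by
  rw [contDiffAt_euclidean]
  intro i
  exact sm_sgi C i z hz

lemma sgm_one (C : NullCone n) (hx : ‖x‖ = 1) : sgm C x = Y C.H x (C.U x) := by
  ext i
  simp [sgm, sgi, Y, hx]

/-- the boundary -/
lemma sgm_bd (hS : IsSlice C lam V f D) {z : E n} (hz : z ≠ 0) :
    D.F (sgm C z) = 0 ∧ f (sgm C z) + lam (sgm C z) = 0 := by
  have hn : 0 < ‖z‖ := norm_pos_iff.2 hz
  have hU := C.pos z hz
  have hr : 0 < C.U z / ‖z‖ := div_pos hU hn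
  have hz' : (C.U z / ‖z‖) • z ≠ 0 := smul_ne_zero hr.ne' hz
  have hn' : ‖(C.U z / ‖z‖) • z‖ = C.U z := by
    rw [norm_smul, Real.norm_eq_abs, abs_of_pos hr, div_mul_cancel₀ _ hn.ne']
  have hU' : C.U ((C.U z / ‖z‖) • z) = C.U z := by
    rw [homU C z hz _ hr]
    simp
  have e : Psi C.H ((C.U z / ‖z‖) • z) = sgm C z := by
    ext i
    have h1 : pd i C.H ((C.U z / ‖z‖) • z) = pd i C.H z := by
      rw [((homH C).pd (smH C) i) z hz _ hr]
      simp
    have h0 : Stmt.pd i C.H ((C.U z / ‖z‖) • z) = pd i C.H ((C.U z / ‖z‖) • z) :=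
      stmt_pd' (smH C _ hz') i
    simp only [Psi, sgm, sgi, PiLp.smul_apply, smul_eq_mul]
    first
    | rw [h1]
    | rw [h0, h1]
    ring
  have h1 := hS.bdr _ hz' (by rw [hn', hU'])
  have h2 := hS.eqL _ hz' (by rw [hn', hU'])
  rw [e] at h1 h2
  refine ⟨h1.1, ?_⟩
  rw [h1.2, h2, hn', hU']
  ring

lemma pd_ndir (hx : ‖x‖ = 1) (i j : Fin n) : pd j (fun z : E n => z i / ‖z‖) x = kd j i - x i * x j := by
  have hx0 := ne_zero_of_one hx
  have h1 : pd j (fun z : E n => (z i / ‖z‖) * ‖z‖) x = kd j i := by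
    rw [← pd_coord' (x := x) j i]
    refine pd_congr' (fun z hz => ?_) hx0 j
    exact div_mul_cancel₀ _ (norm_ne_zero_iff.2 hz)
  rw [pd_mul' (Sm.ndir i) Sm.norm hx0, pd_norm' hx0, hx] at h1
  linarith

lemma pd_sgi (C : NullCone n) (hx : ‖x‖ = 1) (i j : Fin n) :
    pd j (sgi C i) x = hs C.H j i x + x i * pd j C.U x + C.U x * (kd j i - x i * x j) := by
  have hx0 := ne_zero_of_one hx
  unfold sgi
  rw [pd_add' ((smH C).pd i) ((smU C).mul (Sm.ndir i)) hx0, pd_mul' (smU C) (Sm.ndir i) hx0,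
    pd_ndir hx, hx]
  unfold H353.N.hs
  ring

/-- the velocity of the boundary point -/
def vel (C : NullCone n) (x : E n) (v : Fin n → ℝ) (i : Fin n) : ℝ :=
  ∑ j, Ws C.H (C.U x) x i j * v j + (∑ j, pd j C.U x * v j) * x i

lemma curve (C : NullCone n) (hx : ‖x‖ = 1) {v : E n} (hv : ∑ i, x i * v i = 0) :
    ContDiffAt ℝ ∞ (fun t : ℝ => sgm C (x + t • v)) 0 ∧
      HasDerivAt (fun t : ℝ => sgm C (x + t • v)) (WithLp.toLp 2 (vel C x fun i => v i)) 0 := by
  have hx0 := ne_zero_of_one hx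
  have e0 : x + (0 : ℝ) • v = x := by simp
  have hl : ContDiffAt ℝ ∞ (fun t : ℝ => x + t • v) 0 :=
    contDiffAt_const.add (contDiffAt_id.smul contDiffAt_const)
  have hcd : ContDiffAt ℝ ∞ (fun t : ℝ => sgm C (x + t • v)) 0 := by
    have h1 : ContDiffAt ℝ ∞ (sgm C) (x + (0 : ℝ) • v) := by rw [e0]; exact sgm_cd C hx0
    exact ContDiffAt.comp (g := sgm C) (f := fun t : ℝ => x + t • v) (0 : ℝ) h1 hl
  refine ⟨hcd, ?_⟩
  have hld : HasDerivAt (fun t : ℝ => x + t • v) v 0 := by
    simpa using ((hasDerivAt_id (0 : ℝ)).smul_const v).const_add x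
  have h2 := (hcd.differentiableAt (by simp)).hasDerivAt
  have e : deriv (fun t : ℝ => sgm C (x + t • v)) 0 = WithLp.toLp 2 (vel C x fun i => v i) := by
    ext i
    have h3 := H375.deriv_apply h2 i
    have h4 : HasDerivAt (fun t : ℝ => sgi C i (x + t • v)) (∑ j, v j * pd j (sgi C i) x) 0 := by
      have h5 : DifferentiableAt ℝ (sgi C i) (x + (0 : ℝ) • v) := by
        rw [e0]
        exact (sm_sgi C i).diff hx0
      have h6 := H375.curve_deriv (G := sgi C i) (c := fun t : ℝ => x + t • v) h5 hld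
      simp only [e0] at h6
      have h7 : ∑ j, v j * Stmt.pd j (sgi C i) x = ∑ j, v j * pd j (sgi C i) x :=
        Finset.sum_congr rfl fun j _ => by rw [stmt_pd ((sm_sgi C i).diff hx0)]
      rw [h7] at h6
      exact h6
    have h5 : (deriv (fun t : ℝ => sgm C (x + t • v)) 0) i = ∑ j, v j * pd j (sgi C i) x :=
      h3.unique h4
    rw [h5]
    show _ = vel C x (fun i => v i) i
    unfold vel
    have h6 : ∀ j, v j * pd j (sgi C i) x = Ws C.H (C.U x) x i j * v j + (pd j C.U x * v j) * x i -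
        (C.U x * x i) * (x j * v j) + C.U x * x i * (x j * v j) := by
      intro j
      rw [pd_sgi C hx, hs_symm (smH C) hx0 j i]
      unfold Ws pr
      have : kd j i = kd i j := by
        unfold kd
        simp only [eq_comm]
      rw [this]
      ring
    simp only [h6, Finset.sum_add_distrib, Finset.sum_sub_distrib, ← Finset.mul_sum,
      ← Finset.sum_mul, hv]
    ring
  rw [← e]
  exact h2

end Vale.Agent.P366.KSN.X2
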