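import Vale.Agent.P366.H375.N.X2f

/-! The boundary of a Kerr-Schild exterior is weakly future trapped: the pointwise inequality. -/

open MeasureTheory Metric Filter Topology Set
open scoped ContDiff ENNReal

noncomputable section
namespace Vale.Agent.P366.KSN

open Vale.Agent.P366 (pd E)
open Vale.Agent.P366.H353.N
open Vale.Agent.P366.H375 (dl HP)
open Vale.Agent.P366.Kerr (NullCone IsSlice Region Psi pt sp nul ksG indG indK lapse tng con)

variable {n : ℕ} {C : NullCone n} {lam f : E n → ℝ} {V : E (n + 1) → ℝ} {D : Stmt.Exterior n} {x y : E n} {s t : ℝ}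

namespace X2

lemma thl_alg {A : Fin n → Fin n → ℝ} {f u : Fin n → ℝ} {S c : ℝ} (hA : ∀ i j, A i j = A j i)
    (hfu : ∑ i, f i * u i = S - 1) (huu : ∑ i, u i * u i = 1) (hff : ∑ i, f i * f i = 1 - c)
    (hS : S ≠ 0) :
    (∑ i, ∑ j, A i j * pr u i j) + 2 * (∑ i, ∑ j, A i j * (-(f i - (S - 1) * u i) / S) * u j) +
      (∑ i, (-(f i - (S - 1) * u i) / S) ^ 2) * (∑ i, ∑ j, A i j * u i * u j) =
    ∑ i, ∑ j, (dl i j - c / S ^ 2 * (u i * u j) - (u i * f j + f i * u j) / S) * A i j := by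
  obtain ⟨q, hq⟩ : ∃ q, q = ∑ i, ∑ j, A i j * u i * u j := ⟨_, rfl⟩
  obtain ⟨r, hr⟩ : ∃ r, r = ∑ i, ∑ j, A i j * f i * u j := ⟨_, rfl⟩
  obtain ⟨t, ht⟩ : ∃ t, t = ∑ i, ∑ j, dl i j * A i j := ⟨_, rfl⟩
  have h1 : ∑ i, ∑ j, A i j * pr u i j = t - q := by
    rw [ht, hq, ← Finset.sum_sub_distrib]
    refine Finset.sum_congr rfl fun i _ => ?_
    rw [← Finset.sum_sub_distrib]
    refine Finset.sum_congr rfl fun j _ => ?_
    unfold pr kd dl
    ring
  have h2 : ∑ i, ∑ j, A i j * (-(f i - (S - 1) * u i) / S) * u j = -(r - (S - 1) * q) / S := by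
    rw [hr, hq, Finset.mul_sum, ← Finset.sum_sub_distrib, ← Finset.sum_neg_distrib, Finset.sum_div]
    refine Finset.sum_congr rfl fun i _ => ?_
    rw [Finset.mul_sum, ← Finset.sum_sub_distrib, ← Finset.sum_neg_distrib, Finset.sum_div]
    exact Finset.sum_congr rfl fun j _ => by ring
  have h3 : ∑ i, (-(f i - (S - 1) * u i) / S) ^ 2 = ((1 - c) - (S - 1) ^ 2) / S ^ 2 := by
    have e : ∑ i, (-(f i - (S - 1) * u i) / S) ^ 2 =
        ((∑ i, f i * f i) - 2 * (S - 1) * (∑ i, f i * u i) + (S - 1) ^ 2 * ∑ i, u i * u i) /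
          S ^ 2 := by
      rw [Finset.mul_sum, Finset.mul_sum, ← Finset.sum_sub_distrib, ← Finset.sum_add_distrib,
        Finset.sum_div]
      exact Finset.sum_congr rfl fun i _ => by ring
    rw [e, hfu, huu, hff]
    ring
  have h4 : ∑ i, ∑ j, A i j * u i * f j = r := by
    rw [hr, Finset.sum_comm]
    exact Finset.sum_congr rfl fun i _ => Finset.sum_congr rfl fun j _ => by rw [hA j i]; ring
  have h5 : ∑ i, ∑ j, (dl i j - c / S ^ 2 * (u i * u j) - (u i * f j + f i * u j) / S) * A i j =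
      t - c / S ^ 2 * q - ((∑ i, ∑ j, A i j * u i * f j) + r) / S := by
    rw [ht, hq, hr, ← Finset.sum_add_distrib, Finset.sum_div, Finset.mul_sum,
      ← Finset.sum_sub_distrib, ← Finset.sum_sub_distrib]
    refine Finset.sum_congr rfl fun i _ => ?_
    rw [← Finset.sum_add_distrib, Finset.sum_div, Finset.mul_sum,
      ← Finset.sum_sub_distrib, ← Finset.sum_sub_distrib]
    exact Finset.sum_congr rfl fun j _ => by ring
  rw [h1, h2, h3, h5, h4, ← hq]
  field_simp
  ring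

lemma cd_pt (hf : ContDiffAt ℝ ∞ f y) : ContDiffAt ℝ ∞ (fun z => pt (f z) z) y := by
  rw [contDiffAt_euclidean]
  intro i
  refine Fin.cases ?_ (fun k => ?_) i
  · exact hf
  · have h := (contDiffAt_piLp_apply (p := 2) (i := k) : ContDiffAt ℝ ∞ (fun z : E n => z k) y)
    exact h

/-- the point data -/
def ptd (hS : IsSlice C lam V f D) (hy : 0 ≤ D.F y) : H375.Pt n where
  f i := Stmt.pd i f y
  u i := Stmt.pd i lam y
  v := V (pt (f y) y)
  S := 1 + ∑ i, Stmt.pd i f y * Stmt.pd i lam y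
  c := 1 - ∑ i, Stmt.pd i f y * Stmt.pd i f y
  s := √(1 - ∑ i, Stmt.pd i f y * Stmt.pd i f y +
      V (pt (f y) y) * (1 + ∑ i, Stmt.pd i f y * Stmt.pd i lam y) ^ 2)
  uu := by
    rw [← gsq_lam' hS hy]
    exact Finset.sum_congr rfl fun i _ => by rw [stmt_pd' (hS.smL y hy)]; ring
  fu := by ring
  ff := by ring
  hs := by
    refine Real.sq_sqrt (le_of_lt ?_)
    have h := det_indG_pos hS hy
    unfold dL at h
    simpa only [stmt_pd' (hS.smL y hy), stmt_pd' (hS.smf y hy), sq, mul_comm] using h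
  s0 := by
    refine Real.sqrt_pos.2 ?_
    have h := det_indG_pos hS hy
    unfold dL at h
    simpa only [stmt_pd' (hS.smL y hy), stmt_pd' (hS.smf y hy), sq, mul_comm] using h
  S0 := by
    have h := dL_pos hS hy
    unfold dL at h
    simpa only [stmt_pd' (hS.smL y hy), stmt_pd' (hS.smf y hy), mul_comm] using h

/-- the closed form of the metric, as a field -/
def clG (lam f : E n → ℝ) (V : E (n + 1) → ℝ) : Stmt.Field n := fun z i j =>
  dl i j - Stmt.pd i f z * Stmt.pd j f z +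
    V (pt (f z) z) * (Stmt.pd i f z + Stmt.pd i lam z) * (Stmt.pd j f z + Stmt.pd j lam z)

lemma clG_cd (hl : ContDiffAt ℝ ∞ lam y) (hf : ContDiffAt ℝ ∞ f y)
    (hV : ContDiffAt ℝ ∞ (fun z => V (pt (f z) z)) y) (i j : Fin n) :
    ContDiffAt ℝ ∞ (fun z => clG lam f V z i j) y :=
  (contDiffAt_const.sub ((H375.cd_pd hf i).mul (H375.cd_pd hf j))).add
    ((hV.mul ((H375.cd_pd hf i).add (H375.cd_pd hl i))).mul
      ((H375.cd_pd hf j).add (H375.cd_pd hl j)))

end X2

open X2 in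
/-- the boundary is weakly future trapped: `θ_ℓ ≤ V Δλ` -/
theorem trapped_thl (hS : IsSlice C lam V f D) (hV : ∀ p ∈ Region lam f D, ContDiffAt ℝ ∞ V p)
    (hT : D.Trapped) (hx : ‖x‖ = 1) :
    thl lam f (Y C.H x (C.U x)) ≤
      V (pt (- C.U x) (Y C.H x (C.U x))) * lap lam (Y C.H x (C.U x)) := by
  obtain ⟨hFb, hfb⟩ := f_bdr hS hx
  obtain ⟨r, b, hr0, hpF, hpFF⟩ := compare hS hx
  have hux : ∀ i, pd i lam (Y C.H x (C.U x)) = x i := fun i => pd_lam_Y hS hx (le_refl _) i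
  have hlx : ∀ i, ∑ k, H353.N.hs lam i k (Y C.H x (C.U x)) * x k = 0 := fun i =>
    hs_lam_mul_x hS hx (le_refl _) i
  rw [← hfb]
  generalize Y C.H x (C.U x) = y at *
  have hy : 0 ≤ D.F y := hFb.ge
  have hl := hS.smL y hy
  have hf := hS.smf y hy
  have hVy : ContDiffAt ℝ ∞ V (pt (f y) y) := hV _ (mem_region hS hy)
  have hVf : ContDiffAt ℝ ∞ (fun z => V (pt (f z) z)) y :=
    ContDiffAt.comp (g := V) (f := fun z => pt (f z) z) y hVy (cd_pt hf)
  have hJ : H375.Jet (clG lam f V) D.F f lam (fun z => V (pt (f z) z)) y (ptd hS hy) r b :=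
    { cf := hf
      cl := hl
      cv := hVf
      r0 := hr0
      pF := fun i => hpF i
      pFF := fun i j => hpFF i j
      eik := fun i => by
        show ∑ j, Stmt.pd i (Stmt.pd j lam) y * Stmt.pd j lam y = 0
        rw [← hlx i]
        exact Finset.sum_congr rfl fun j _ => by rw [stmt_pd2 hl, stmt_pd' hl, hux]; rfl
      hg := fun i j => Eventually.of_forall fun z => rfl
      pf := fun i => rfl
      pu := fun i => rfl
      pv := rfl }
  have hθ : Stmt.thetaPlus (clG lam f V) D.K D.F y ≤ 0 := by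
    rw [← H375.thetaPlus_congr (g := D.g) (K := D.K) (K' := D.K)]
    · exact hT y hFb
    · intro i j
      rw [hS.met y hy i j, X2.indG_eq]
      rfl
    · intro i j
      rfl
    · intro i j k
      refine H375.pd_eq_of_eqOn D.dom.1 D.dom.2.1 (fun z hz => ?_) hy
        (((D.smooth i j).1.contDiffAt).differentiableAt (by simp))
        ((clG_cd hl hf hVf i j).differentiableAt (by simp)) k
      rw [hS.met z hz i j, X2.indG_eq]
      rfl
  have hg1 : ∑ i, pd i lam y ^ 2 = 1 := gsq_lam' hS hy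
  have hg2 : ∀ i, ∑ j, H353.N.hs lam i j y * pd j lam y = 0 := fun i => by
    rw [← hlx i]
    exact Finset.sum_congr rfl fun j _ => by rw [hux]
  have hg3 : ∑ i, Stmt.pd i lam y * Stmt.pd i lam y = 1 := (ptd hS hy).uu
  obtain ⟨Q, hQ⟩ : ∃ Q, Q = pd 0 V (pt (f y) y) +
      ∑ k : Fin n, Stmt.pd k f y * pd k.succ V (pt (f y) y) -
        V (pt (f y) y) * (1 + ∑ k, Stmt.pd k f y * Stmt.pd k lam y) *
        (- pd 0 V (pt (f y) y) + ∑ k : Fin n, Stmt.pd k lam y * pd k.succ V (pt (f y) y)) :=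
    ⟨_, rfl⟩
  have hK : ∀ i j, D.K y i j = (Stmt.pd i (Stmt.pd j f) y - (ptd hS hy).v * (ptd hS hy).S *
      Stmt.pd i (Stmt.pd j lam) y +
      ((-((ptd hS hy).S / 2) * cot f y (fun a => pd a V (pt (f y) y)) i +
        Q / 4 * (ptd hS hy).F i) * (ptd hS hy).F j +
      (ptd hS hy).F i * (-((ptd hS hy).S / 2) * cot f y (fun a => pd a V (pt (f y) y)) j +
        Q / 4 * (ptd hS hy).F j))) / (ptd hS hy).s := by
    intro i j
    rw [hS.sff y hy i j, X2.indK_eq hl hg1 hVy i j, X2.lapse_eq V f hg3, ← hQ]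
    have e1 : (ptd hS hy).v = V (pt (f y) y) := rfl
    have e2 : (ptd hS hy).S = 1 + ∑ i, Stmt.pd i f y * Stmt.pd i lam y := rfl
    have e3 : ∀ i, (ptd hS hy).F i = Stmt.pd i f y + Stmt.pd i lam y := fun i => rfl
    have e4 : (ptd hS hy).s = √(1 - ∑ i, Stmt.pd i f y * Stmt.pd i f y +
      V (pt (f y) y) * (1 + ∑ i, Stmt.pd i f y * Stmt.pd i lam y) ^ 2) := rfl
    rw [e3, e3, ← e4, e1, ← e2]
    ring
  have hth := hJ.theta hK
  rw [hth] at hθ
  have hs0 := (ptd hS hy).s0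
  have hS0 := (ptd hS hy).S0
  have h1 := nonpos_of_mul_nonpos_right hθ (div_pos hS0 hs0)
  have hL : ∑ i, Stmt.pd i (Stmt.pd i lam) y = lap lam y := by
    unfold lap
    exact Finset.sum_congr rfl fun i _ => by rw [stmt_pd2 hl]; rfl
  rw [hL] at h1
  have hct : (ptd hS hy).ct (fun i j => Stmt.pd i (Stmt.pd j f) y) =
      (∑ i, ∑ j, hs f i j y * pr (fun k => pd k lam y) i j) +
        2 * (∑ i, ∑ j, hs f i j y * bv lam f i y * pd j lam y) +
        (∑ i, bv lam f i y ^ 2) * ∑ i, ∑ j, hs f i j y * pd i lam y * pd j lam y := by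
    have h2 := thl_alg (A := fun i j => Stmt.pd i (Stmt.pd j f) y) (f := (ptd hS hy).f)
      (u := (ptd hS hy).u) (S := (ptd hS hy).S) (c := (ptd hS hy).c)
      (fun i j => H375.pd_symm hf i j) (ptd hS hy).fu (ptd hS hy).uu (ptd hS hy).ff hS0.ne'
    unfold H375.Pt.ct
    refine Eq.trans h2.symm ?_
    have e1 : ∀ i j, Stmt.pd i (Stmt.pd j f) y = hs f i j y := fun i j => by
      rw [stmt_pd2 hf]; rfl
    have e2 : ∀ i, (ptd hS hy).u i = pd i lam y := fun i => stmt_pd' hl i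
    have e3 : ∀ i, (ptd hS hy).f i = pd i f y := fun i => stmt_pd' hf i
    have e4 : (ptd hS hy).S = 1 + dL lam f y := by
      show 1 + ∑ i, Stmt.pd i f y * Stmt.pd i lam y = _
      unfold dL
      congr 1
      exact Finset.sum_congr rfl fun i _ => by rw [stmt_pd' hf, stmt_pd' hl]; ring
    have e5 : (ptd hS hy).u = fun k => pd k lam y := funext e2
    have e6 : ∀ i, (-((ptd hS hy).f i - ((ptd hS hy).S - 1) * (ptd hS hy).u i) / (ptd hS hy).S) =
        bv lam f i y := by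
      intro i
      rw [e2, e3, e4]
      unfold bv
      ring
    simp only [e6]
    simp only [e1, e5]
  have hv : (ptd hS hy).v = V (pt (f y) y) := rfl
  have hS' : (ptd hS hy).S = 1 + dL lam f y := by
    show 1 + ∑ i, Stmt.pd i f y * Stmt.pd i lam y = _
    unfold dL
    congr 1
    exact Finset.sum_congr rfl fun i _ => by rw [stmt_pd' hf, stmt_pd' hl]; ring
  have hc' : (ptd hS hy).c = 1 - ∑ i, pd i f y ^ 2 := by
    show 1 - ∑ i, Stmt.pd i f y * Stmt.pd i f y = _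
    congr 1
    exact Finset.sum_congr rfl fun i _ => by rw [stmt_pd' hf]; ring
  rw [hct, hv, hS', hc'] at h1
  unfold thl
  have e : lap lam y * (1 - ∑ i, pd i f y ^ 2) / (1 + dL lam f y) ^ 2 =
      (1 - ∑ i, pd i f y ^ 2) / (1 + dL lam f y) ^ 2 * lap lam y := by ring
  rw [e]
  linarith

end Vale.Agent.P366.KSN
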