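import Vale.Agent.P366.H375.X2c
import Vale.Agent.P366.H222.N.X0d
import Vale.Agent.P366.H896.N.X1a

/-! Closed forms of the data induced on a hypersurface `t = f(y)` of a Kerr-Schild metric. -/

open MeasureTheory Metric Filter Topology Set
open scoped ContDiff ENNReal

noncomputable section
namespace Vale.Agent.P366.KSN.X2

open Vale.Agent.P366 (pd E)
open Vale.Agent.P366.H353.N
open Vale.Agent.P366.H375 (dl HP)
open Vale.Agent.P366.Kerr (NullCone IsSlice Region Psi pt sp nul ksG indG indK lapse tng con)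

variable {n : ℕ} {C : NullCone n} {lam f : E n → ℝ} {V : E (n + 1) → ℝ} {D : Stmt.Exterior n} {x y : E n} {s t : ℝ}

/-! ### the two partial derivatives -/

lemma stmt_pd {f : E n → ℝ} {x : E n} (h : DifferentiableAt ℝ f x) (i : Fin n) :
    Stmt.pd i f x = pd i f x := H375.pd_fderiv h i

lemma stmt_pd' {f : E n → ℝ} {x : E n} (h : ContDiffAt ℝ ∞ f x) (i : Fin n) :
    Stmt.pd i f x = pd i f x := stmt_pd (H375.cd_diff h) i

lemma stmt_pd2 {f : E n → ℝ} {x : E n} (h : ContDiffAt ℝ ∞ f x) (i j : Fin n) :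
    Stmt.pd i (Stmt.pd j f) x = pd i (pd j f) x := by
  rw [H375.pd_congr (H375.pd_ev h j) i]
  have h1 : DifferentiableAt ℝ (fun y => fderiv ℝ f y (EuclideanSpace.single j 1)) x := by
    have h2 : ContDiffAt ℝ ∞ (fderiv ℝ f) x := h.fderiv_right (by simp)
    exact (h2.clm_apply contDiffAt_const).differentiableAt (by simp)
  exact stmt_pd h1 i

/-! ### the function `nul` and the points of spacetime -/

lemma sp_pt (t : ℝ) (y : E n) : sp (pt t y) = y := by
  ext i
  simp [sp, pt]

lemma pt_zero (t : ℝ) (y : E n) : pt t y 0 = t := by simp [pt]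

lemma pt_succ (t : ℝ) (y : E n) (i : Fin n) : pt t y i.succ = y i := by simp [pt]

lemma pd_nul_zero (lam : E n → ℝ) (p : E (n + 1)) : Stmt.pd 0 (nul lam) p = 1 := by
  unfold Stmt.pd lineDeriv
  have e : (fun t : ℝ => nul lam (p + t • EuclideanSpace.single 0 (1 : ℝ))) =
      fun t : ℝ => p 0 + t + lam (sp p) := by
    funext t
    have h1 : sp (p + t • EuclideanSpace.single 0 (1 : ℝ)) = sp p := by
      ext i
      simp [sp]
    unfold nul
    rw [h1]
    simp
  rw [e]
  have : HasDerivAt (fun t : ℝ => p 0 + t + lam (sp p)) 1 0 := by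
    simpa using ((hasDerivAt_id (0 : ℝ)).const_add (p 0)).add_const (lam (sp p))
  exact this.deriv

lemma pd_nul_succ (lam : E n → ℝ) (p : E (n + 1)) (i : Fin n) :
    Stmt.pd i.succ (nul lam) p = Stmt.pd i lam (sp p) := by
  unfold Stmt.pd lineDeriv
  have e : (fun t : ℝ => nul lam (p + t • EuclideanSpace.single i.succ (1 : ℝ))) =
      fun t : ℝ => p 0 + lam (sp p + t • EuclideanSpace.single i (1 : ℝ)) := by
    funext t
    have h1 : sp (p + t • EuclideanSpace.single i.succ (1 : ℝ)) =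
        sp p + t • EuclideanSpace.single i (1 : ℝ) := by
      ext j
      simp [sp]
    have h2 : (p + t • EuclideanSpace.single i.succ (1 : ℝ)) 0 = p 0 := by
      simp [(Fin.succ_ne_zero i).symm]
    unfold nul
    rw [h1, h2]
  rw [e, deriv_const_add]

/-- closed form of the induced metric -/
theorem indG_eq (lam : E n → ℝ) (V : E (n + 1) → ℝ) (f : E n → ℝ) (y : E n) (i j : Fin n) :
    indG (ksG lam V) f y i j = dl i j - Stmt.pd i f y * Stmt.pd j f y +
      V (pt (f y) y) * (Stmt.pd i f y + Stmt.pd i lam y) * (Stmt.pd j f y + Stmt.pd j lam y) := by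
  have hw : ∀ i : Fin n, ∑ a, Stmt.pd a (nul lam) (pt (f y) y) * tng f i y a =
      Stmt.pd i f y + Stmt.pd i lam y := by
    intro i
    rw [Fin.sum_univ_succ]
    simp only [pd_nul_zero, pd_nul_succ, sp_pt, tng, Fin.cons_zero, Fin.cons_succ]
    simp [Pi.single_apply]
  have he : ∑ a, ∑ b, (if a = b then (if a = 0 then (-1 : ℝ) else 1) else 0) * tng f i y a *
      tng f j y b = dl i j - Stmt.pd i f y * Stmt.pd j f y := by
    have h1 : ∀ a : Fin (n + 1), ∑ b, (if a = b then (if a = 0 then (-1 : ℝ) else 1) else 0) *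
        tng f i y a * tng f j y b = (if a = 0 then (-1 : ℝ) else 1) * tng f i y a * tng f j y a := by
      intro a
      rw [Finset.sum_eq_single a]
      · simp
      · intro b _ hb
        simp [hb.symm]
      · simp
    simp only [h1]
    rw [Fin.sum_univ_succ]
    simp only [tng, Fin.cons_zero, Fin.cons_succ, if_true, Fin.succ_ne_zero, if_false]
    have h2 : ∑ k : Fin n, (1 : ℝ) * Pi.single (M := fun _ => ℝ) i 1 k *
        Pi.single (M := fun _ => ℝ) j 1 k = dl i j := by
      rw [Finset.sum_eq_single j]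
      · simp [dl, Pi.single_apply, eq_comm]
      · intro b _ hb
        simp [Pi.single_apply, hb]
      · simp
    rw [h2]
    ring
  unfold indG
  rw [← he, ← hw i, ← hw j]
  have e1 : V (pt (f y) y) * (∑ a, Stmt.pd a (nul lam) (pt (f y) y) * tng f i y a) *
      (∑ b, Stmt.pd b (nul lam) (pt (f y) y) * tng f j y b) =
      ∑ a, ∑ b, V (pt (f y) y) * Stmt.pd a (nul lam) (pt (f y) y) *
        Stmt.pd b (nul lam) (pt (f y) y) * tng f i y a * tng f j y b := by
    simp only [Finset.mul_sum, Finset.sum_mul]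
    rw [Finset.sum_comm]
    exact Finset.sum_congr rfl fun a _ => Finset.sum_congr rfl fun b _ => by ring
  rw [e1, ← Finset.sum_add_distrib]
  refine Finset.sum_congr rfl fun a _ => ?_
  rw [← Finset.sum_add_distrib]
  refine Finset.sum_congr rfl fun b _ => ?_
  unfold ksG
  ring

/-! ### the inverse metric and the lapse -/

/-- the sign of the time coordinate -/
def sg (a : Fin (n + 1)) : ℝ := if a = 0 then -1 else 1

lemma sg_sq (a : Fin (n + 1)) : sg a * sg a = 1 := by
  unfold sg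
  split_ifs <;> norm_num

/-- the covector `dt + dλ` -/
def wv (lam : E n → ℝ) (y : E n) : Fin (n + 1) → ℝ := Fin.cons 1 fun i => Stmt.pd i lam y

lemma ksG_eq (lam : E n → ℝ) (V : E (n + 1) → ℝ) (p : E (n + 1)) (a b : Fin (n + 1)) :
    ksG lam V p a b = (if a = b then sg a else 0) + V p * wv lam (sp p) a * wv lam (sp p) b := by
  have h : ∀ a, Stmt.pd a (nul lam) p = wv lam (sp p) a := by
    intro a
    refine Fin.cases ?_ (fun i => ?_) a
    · rw [pd_nul_zero]; rfl
    · rw [pd_nul_succ]; rfl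
  unfold ksG sg
  rw [h, h]

lemma up_ksG {p : E (n + 1)} (hl : ∑ i, Stmt.pd i lam (sp p) * Stmt.pd i lam (sp p) = 1) (a b : Fin (n + 1)) :
    Stmt.up (ksG lam V) a b p = (if a = b then sg a else 0) -
      V p * (sg a * wv lam (sp p) a) * (sg b * wv lam (sp p) b) := by
  have hk : ∑ a, sg a * (wv lam (sp p) a * wv lam (sp p) a) = 0 := by
    rw [Fin.sum_univ_succ]
    simp only [wv, Fin.cons_zero, Fin.cons_succ, sg, if_true, Fin.succ_ne_zero, if_false, one_mul]
    rw [hl]
    norm_num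
  have e : Stmt.mat (ksG lam V) p * (Matrix.of fun a b => (if a = b then sg a else 0) -
      V p * (sg a * wv lam (sp p) a) * (sg b * wv lam (sp p) b)) = 1 := by
    ext a c
    rw [Matrix.mul_apply]
    have h1 : ∀ b, Stmt.mat (ksG lam V) p a b * (Matrix.of fun a b => (if a = b then sg a else 0) -
        V p * (sg a * wv lam (sp p) a) * (sg b * wv lam (sp p) b)) b c =
        (if a = b then sg a * (if b = c then sg b else 0) else 0) -
        (if a = b then sg a * (V p * (sg b * wv lam (sp p) b) * (sg c * wv lam (sp p) c)) else 0) +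
        (if b = c then V p * wv lam (sp p) a * wv lam (sp p) b * sg b else 0) -
        V p * V p * wv lam (sp p) a * (sg c * wv lam (sp p) c) *
          (sg b * (wv lam (sp p) b * wv lam (sp p) b)) := by
      intro b
      rw [Matrix.of_apply]
      unfold Stmt.mat
      rw [ksG_eq]
      split_ifs <;> ring
    simp only [h1, Finset.sum_add_distrib, Finset.sum_sub_distrib, ← Finset.mul_sum, hk,
      Finset.sum_ite_eq, Finset.sum_ite_eq', Finset.mem_univ, if_true]
    rw [Matrix.one_apply]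
    have h2 := sg_sq a
    split_ifs with hac
    · subst hac
      linear_combination (1 - V p * wv lam (sp p) a * (sg a * wv lam (sp p) a)) * h2
    · linear_combination (-V p * wv lam (sp p) a * (sg c * wv lam (sp p) c)) * h2
  unfold Stmt.up
  rw [Matrix.inv_eq_right_inv e, Matrix.of_apply]

/-- closed form of the lapse -/
theorem lapse_eq (V : E (n + 1) → ℝ) (f : E n → ℝ) {y : E n}
    (hl : ∑ i, Stmt.pd i lam y * Stmt.pd i lam y = 1) :
    lapse (ksG lam V) f y = 1 / √(1 - ∑ i, Stmt.pd i f y * Stmt.pd i f y +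
      V (pt (f y) y) * (1 + ∑ i, Stmt.pd i f y * Stmt.pd i lam y) ^ 2) := by
  have hk : ∑ a, sg a * wv lam y a * con f y a =
      -(1 + ∑ i, Stmt.pd i f y * Stmt.pd i lam y) := by
    rw [Fin.sum_univ_succ]
    simp only [wv, con, Fin.cons_zero, Fin.cons_succ, sg, if_true, Fin.succ_ne_zero, if_false,
      one_mul, mul_neg, Finset.sum_neg_distrib]
    have : ∑ i, Stmt.pd i lam y * Stmt.pd i f y = ∑ i, Stmt.pd i f y * Stmt.pd i lam y :=
      Finset.sum_congr rfl fun i _ => mul_comm _ _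
    rw [this]
    ring
  have hc : ∑ a, sg a * con f y a * con f y a = -1 + ∑ i, Stmt.pd i f y * Stmt.pd i f y := by
    rw [Fin.sum_univ_succ]
    simp only [con, Fin.cons_zero, Fin.cons_succ, sg, if_true, Fin.succ_ne_zero, if_false,
      one_mul, mul_neg, neg_mul, neg_neg, mul_one]
  have hl' : ∑ i, Stmt.pd i lam (sp (pt (f y) y)) * Stmt.pd i lam (sp (pt (f y) y)) = 1 := by
    rw [sp_pt, hl]
  unfold lapse
  congr 2
  have e : ∀ a, ∑ b, Stmt.up (ksG lam V) a b (pt (f y) y) * con f y a * con f y b =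
      sg a * con f y a * con f y a - V (pt (f y) y) * (∑ b, sg b * wv lam y b * con f y b) *
        (sg a * wv lam y a * con f y a) := by
    intro a
    simp only [up_ksG hl', sp_pt, sub_mul, Finset.sum_sub_distrib, ite_mul, zero_mul,
      Finset.sum_ite_eq, Finset.mem_univ, if_true]
    congr 1
    rw [Finset.mul_sum, Finset.sum_mul]
    exact Finset.sum_congr rfl fun b _ => by ring
  simp only [e, Finset.sum_sub_distrib, ← Finset.mul_sum]
  rw [hk, hc]
  ring

/-! ### the second fundamental form -/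

/-- contraction of a covector with the vector field `∂_i` of the hypersurface -/
def cot (f : E n → ℝ) (y : E n) (X : Fin (n + 1) → ℝ) (i : Fin n) : ℝ := X 0 * Stmt.pd i f y + X i.succ

lemma cot_eq (f : E n → ℝ) (y : E n) (X : Fin (n + 1) → ℝ) (i : Fin n) :
    ∑ a, X a * tng f i y a = cot f y X i := by
  rw [Fin.sum_univ_succ]
  simp [tng, cot, Pi.single_apply]

lemma bil_eq (f : E n → ℝ) (y : E n) (h : Fin n → Fin n → ℝ) (i j : Fin n) :
    ∑ b, ∑ c, (Fin.cons (fun _ => 0) fun i => (Fin.cons 0 fun j => h i j : Fin (n + 1) → ℝ) :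
      Fin (n + 1) → Fin (n + 1) → ℝ) b c * tng f i y b * tng f j y c = h i j := by
  rw [Fin.sum_univ_succ]
  simp only [Fin.cons_zero, Fin.cons_succ, zero_mul, Finset.sum_const_zero, zero_add]
  have e : ∀ k : Fin n, ∑ c : Fin (n + 1), (Fin.cons 0 fun j => h k j : Fin (n + 1) → ℝ) c *
      tng f i y k.succ * tng f j y c = tng f i y k.succ * h k j := by
    intro k
    rw [Fin.sum_univ_succ]
    simp only [Fin.cons_zero, Fin.cons_succ, zero_mul, zero_add, tng]
    rw [Finset.sum_eq_single j]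
    · simp
      ring
    · intro b _ hb
      simp [Pi.single_apply, hb]
    · simp
  simp only [e]
  simp [tng, Pi.single_apply]

lemma contr (w k dV uV X X' c : Fin (n + 1) → ℝ) (h : Fin (n + 1) → Fin (n + 1) → ℝ) (v kV : ℝ) :
    ∑ a, c a * ∑ b, ∑ d, ((dV b * k a * w d + dV d * k a * w b - uV a * w b * w d) / 2 +
      v * kV * k a * w b * w d / 2 + v * k a * h b d) * X b * X' d =
    (∑ a, k a * c a) * (((∑ b, dV b * X b) * (∑ d, w d * X' d) +
      (∑ d, dV d * X' d) * (∑ b, w b * X b)) / 2 + v * kV * ((∑ b, w b * X b) *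
      (∑ d, w d * X' d)) / 2 + v * ∑ b, ∑ d, h b d * X b * X' d) -
      (∑ a, uV a * c a) * ((∑ b, w b * X b) * (∑ d, w d * X' d)) / 2 := by
  have e : ∀ a, ∑ b, ∑ d, ((dV b * k a * w d + dV d * k a * w b - uV a * w b * w d) / 2 +
      v * kV * k a * w b * w d / 2 + v * k a * h b d) * X b * X' d =
      k a * (((∑ b, dV b * X b) * (∑ d, w d * X' d) +
      (∑ d, dV d * X' d) * (∑ b, w b * X b)) / 2 + v * kV * ((∑ b, w b * X b) *
      (∑ d, w d * X' d)) / 2 + v * ∑ b, ∑ d, h b d * X b * X' d) -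
      uV a * ((∑ b, w b * X b) * (∑ d, w d * X' d)) / 2 := by
    intro a
    have e1 : ∀ b, ∑ d, ((dV b * k a * w d + dV d * k a * w b - uV a * w b * w d) / 2 +
        v * kV * k a * w b * w d / 2 + v * k a * h b d) * X b * X' d =
        k a / 2 * (∑ d, w d * X' d) * (dV b * X b) + k a / 2 * (∑ d, dV d * X' d) * (w b * X b) -
        uV a / 2 * (∑ d, w d * X' d) * (w b * X b) +
        v * kV * k a / 2 * (∑ d, w d * X' d) * (w b * X b) +
        v * k a * ∑ d, h b d * X b * X' d := by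
      intro b
      rw [Finset.mul_sum, Finset.mul_sum, Finset.mul_sum, Finset.mul_sum, Finset.mul_sum,
        Finset.sum_mul, Finset.sum_mul, Finset.sum_mul, Finset.sum_mul, ← Finset.sum_add_distrib,
        ← Finset.sum_sub_distrib, ← Finset.sum_add_distrib, ← Finset.sum_add_distrib]
      exact Finset.sum_congr rfl fun d _ => by ring
    simp only [e1, Finset.sum_add_distrib, Finset.sum_sub_distrib, ← Finset.mul_sum]
    ring
  simp only [e]
  generalize (((∑ b, dV b * X b) * (∑ d, w d * X' d) +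
      (∑ d, dV d * X' d) * (∑ b, w b * X b)) / 2 + v * kV * ((∑ b, w b * X b) *
      (∑ d, w d * X' d)) / 2 + v * ∑ b, ∑ d, h b d * X b * X' d) = A
  generalize ((∑ b, w b * X b) * (∑ d, w d * X' d)) = B
  rw [Finset.sum_mul, Finset.sum_mul, Finset.sum_div, ← Finset.sum_sub_distrib]
  exact Finset.sum_congr rfl fun a _ => by ring

/-- The second fundamental form, closed form. -/
theorem indK_eq {y : E n} (hl : ContDiffAt ℝ ∞ lam y)
    (hg : ∑ i, pd i lam y ^ 2 = 1)
    (hV : ContDiffAt ℝ ∞ V (pt (f y) y)) (i j : Fin n) :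
    indK (ksG lam V) f y i j = lapse (ksG lam V) f y * (Stmt.pd i (Stmt.pd j f) y -
      V (pt (f y) y) * (1 + ∑ k, Stmt.pd k f y * Stmt.pd k lam y) * Stmt.pd i (Stmt.pd j lam) y -
      (1 + ∑ k, Stmt.pd k f y * Stmt.pd k lam y) / 2 *
        (cot f y (fun a => pd a V (pt (f y) y)) i * (Stmt.pd j f y + Stmt.pd j lam y) +
         cot f y (fun a => pd a V (pt (f y) y)) j * (Stmt.pd i f y + Stmt.pd i lam y)) +
      (pd 0 V (pt (f y) y) + ∑ k : Fin n, Stmt.pd k f y * pd k.succ V (pt (f y) y) -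
        V (pt (f y) y) * (1 + ∑ k, Stmt.pd k f y * Stmt.pd k lam y) *
        (- pd 0 V (pt (f y) y) + ∑ k : Fin n, Stmt.pd k lam y * pd k.succ V (pt (f y) y))) / 2 *
        ((Stmt.pd i f y + Stmt.pd i lam y) * (Stmt.pd j f y + Stmt.pd j lam y))) := by
  have hs := sp_pt (f y) y
  have hlp : ∀ i, pd i lam y = Stmt.pd i lam y := fun i => (stmt_pd' hl i).symm
  have hc := chr_ksG (lam := lam) (V := V) (p := pt (f y) y) (by rw [hs]; exact hl)
    (by rw [hs]; exact hg) hV
  simp only [hs] at hc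
  obtain ⟨w, hw⟩ : ∃ w : Fin (n + 1) → ℝ, w = Fin.cons 1 fun i => pd i lam y := ⟨_, rfl⟩
  obtain ⟨k, hk⟩ : ∃ k : Fin (n + 1) → ℝ, k = Fin.cons (-1) fun i => pd i lam y := ⟨_, rfl⟩
  obtain ⟨h, hh⟩ : ∃ h : Fin (n + 1) → Fin (n + 1) → ℝ, h = Fin.cons (fun _ => 0) fun i =>
      (Fin.cons 0 fun j => H353.N.hs lam i j y : Fin (n + 1) → ℝ) := ⟨_, rfl⟩
  obtain ⟨dV, hdV⟩ : ∃ dV : Fin (n + 1) → ℝ, dV = fun a => pd a V (pt (f y) y) := ⟨_, rfl⟩
  obtain ⟨uV, huV⟩ : ∃ uV : Fin (n + 1) → ℝ,
      uV = Fin.cons (- pd 0 V (pt (f y) y)) fun i : Fin n => pd i.succ V (pt (f y) y) := ⟨_, rfl⟩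
  obtain ⟨kV, hkV⟩ : ∃ kV : ℝ, kV = ∑ a, k a * dV a := ⟨_, rfl⟩
  have hc' : ∀ a b c, Stmt.chr (ksG lam V) a b c (pt (f y) y) =
      (dV b * k a * w c + dV c * k a * w b - uV a * w b * w c) / 2 +
      V (pt (f y) y) * kV * k a * w b * w c / 2 + V (pt (f y) y) * k a * h b c := by
    intro a b c
    rw [hc a b c, hkV, hw, hk, hh, hdV, huV]
  have h1 : ∀ i, ∑ b, w b * tng f i y b = Stmt.pd i f y + Stmt.pd i lam y := by
    intro i
    rw [cot_eq, cot, hw]
    simp only [Fin.cons_zero, Fin.cons_succ, hlp]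
    ring
  have h2 : ∑ a, k a * con f y a = -(1 + ∑ k, Stmt.pd k f y * Stmt.pd k lam y) := by
    rw [Fin.sum_univ_succ, hk]
    simp only [con, Fin.cons_zero, Fin.cons_succ, hlp, mul_neg, Finset.sum_neg_distrib]
    have : ∑ i, Stmt.pd i lam y * Stmt.pd i f y = ∑ i, Stmt.pd i f y * Stmt.pd i lam y :=
      Finset.sum_congr rfl fun i _ => mul_comm _ _
    rw [this]
    ring
  have h3 : ∑ a, uV a * con f y a =
      -(pd 0 V (pt (f y) y) + ∑ k : Fin n, Stmt.pd k f y * pd k.succ V (pt (f y) y)) := by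
    rw [Fin.sum_univ_succ, huV]
    simp only [con, Fin.cons_zero, Fin.cons_succ, mul_neg, Finset.sum_neg_distrib]
    have : ∑ i : Fin n, pd i.succ V (pt (f y) y) * Stmt.pd i f y =
        ∑ i : Fin n, Stmt.pd i f y * pd i.succ V (pt (f y) y) :=
      Finset.sum_congr rfl fun i _ => mul_comm _ _
    rw [this]
    ring
  have h4 : kV = - pd 0 V (pt (f y) y) + ∑ k : Fin n, Stmt.pd k lam y * pd k.succ V (pt (f y) y) := by
    rw [hkV, Fin.sum_univ_succ, hk, hdV]
    simp only [Fin.cons_zero, Fin.cons_succ, hlp]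
    ring
  have h5 : ∀ i, ∑ b, dV b * tng f i y b = cot f y (fun a => pd a V (pt (f y) y)) i := by
    intro i
    rw [cot_eq, hdV]
  have h6 : ∑ b, ∑ c, h b c * tng f i y b * tng f j y c = Stmt.pd i (Stmt.pd j lam) y := by
    rw [hh, bil_eq, stmt_pd2 hl]
    rfl
  unfold indK
  simp only [hc']
  have h7 := contr w k dV uV (tng f i y) (tng f j y) (con f y) h (V (pt (f y) y)) kV
  rw [h7, h1, h1, h2, h3, h5, h5, h6, ← h4]
  ring

end Vale.Agent.P366.KSN.X2
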