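import Vale.Agent.P366.H375.N.X2e

/-! The boundary of a Kerr-Schild exterior: comparison of the defining functions. -/

open MeasureTheory Metric Filter Topology Set
open scoped ContDiff ENNReal

noncomputable section
namespace Vale.Agent.P366.KSN.X2

open Vale.Agent.P366 (pd E)
open Vale.Agent.P366.H353.N
open Vale.Agent.P366.H375 (dl HP)
open Vale.Agent.P366.Kerr (NullCone IsSlice Region Psi pt sp nul ksG indG indK lapse tng con)

variable {n : ℕ} {C : NullCone n} {lam f : E n → ℝ} {V : E (n + 1) → ℝ} {D : Stmt.Exterior n} {x y : E n} {s t : ℝ}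

/-- a linear form which vanishes on the velocities and on `x` -/
lemma form_zero (C : NullCone n) (hx : ‖x‖ = 1) {a : Fin n → ℝ} (h0 : ∑ i, x i * a i = 0)
    (h : ∀ v : E n, ∑ i, x i * v i = 0 → ∑ i, vel C x (fun i => v i) i * a i = 0) (i : Fin n) :
    a i = 0 := by
  by_contra hi
  have ha : a ≠ 0 := fun h => hi (congrFun h i)
  have h1 : ∑ i, vel C x a i * a i = 0 := h (WithLp.toLp 2 a) h0
  have h2 : ∑ i, vel C x a i * a i = qf (Ws C.H (C.U x) x) a a +
      (∑ j, pd j C.U x * a j) * ∑ i, x i * a i := by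
    unfold vel qf
    rw [Finset.mul_sum, ← Finset.sum_add_distrib]
    refine Finset.sum_congr rfl fun i _ => ?_
    have e : ∑ j, Ws C.H (C.U x) x i j * a i * a j =
        (∑ j, Ws C.H (C.U x) x i j * a j) * a i := by
      rw [Finset.sum_mul]
      exact Finset.sum_congr rfl fun j _ => by ring
    rw [e]
    ring
  have h3 := posC C hx a h0 ha
  rw [← qf_Ws C hx a h0] at h3
  rw [h2, h0, mul_zero, add_zero] at h1
  exact h3.ne' h1

/-- the velocities fill the plane `F = 0` -/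
lemma vel_surj (C : NullCone n) (hx : ‖x‖ = 1) {a : Fin n → ℝ} (h0 : ∑ i, x i * a i ≠ 0)
    (h : ∀ v : E n, ∑ i, x i * v i = 0 → ∑ i, vel C x (fun i => v i) i * a i = 0) {X : Fin n → ℝ}
    (hX : ∑ i, a i * X i = 0) : ∃ v : E n, ∑ i, x i * v i = 0 ∧ vel C x (fun i => v i) = X := by
  have hd : IsUnit (Ms C.H (C.U x) x).det := (dts_pos C hx le_rfl).ne'.isUnit
  obtain ⟨p, hp⟩ : ∃ p, p = ∑ i, x i * X i := ⟨_, rfl⟩
  obtain ⟨X', hX'⟩ : ∃ X' : Fin n → ℝ, X' = fun i => X i - p * x i := ⟨_, rfl⟩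
  obtain ⟨v, hv⟩ : ∃ v : Fin n → ℝ, v = (Ms C.H (C.U x) x)⁻¹.mulVec X' := ⟨_, rfl⟩
  have hM : (Ms C.H (C.U x) x).mulVec v = X' := by
    rw [hv, Matrix.mulVec_mulVec, Matrix.mul_nonsing_inv _ hd, Matrix.one_mulVec]
  have hxX' : ∑ i, x i * X' i = 0 := by
    have e : ∀ i, x i * X' i = x i * X i - p * (x i * x i) := by
      intro i
      rw [hX']
      ring
    simp only [e, Finset.sum_sub_distrib, ← Finset.mul_sum, sum_xx hx, ← hp]
    ring
  have hMv : ∀ i, X' i = ∑ j, Ws C.H (C.U x) x i j * v j + x i * ∑ j, x j * v j := by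
    intro i
    have e : X' i = ∑ j, Ms C.H (C.U x) x i j * v j := by rw [← hM]; rfl
    rw [e, Finset.mul_sum, ← Finset.sum_add_distrib]
    refine Finset.sum_congr rfl fun j _ => ?_
    unfold Ms
    rw [Matrix.of_apply]
    ring
  have hxv : ∑ i, x i * v i = 0 := by
    have e1 : ∑ i, x i * X' i = ∑ i, x i * (∑ j, Ws C.H (C.U x) x i j * v j) +
        (∑ i, x i * x i) * ∑ j, x j * v j := by
      rw [Finset.sum_mul, ← Finset.sum_add_distrib]
      refine Finset.sum_congr rfl fun i _ => ?_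
      rw [hMv i]
      ring
    have e2 : ∑ i, x i * (∑ j, Ws C.H (C.U x) x i j * v j) = 0 := by
      simp only [Finset.mul_sum]
      rw [Finset.sum_comm]
      refine Finset.sum_eq_zero fun j _ => ?_
      have : ∑ i, x i * (Ws C.H (C.U x) x i j * v j) =
          (∑ i, x i * Ws C.H (C.U x) x i j) * v j := by
        rw [Finset.sum_mul]
        exact Finset.sum_congr rfl fun i _ => by ring
      rw [this, Ws_x' C hx j, zero_mul]
    rw [hxX', e2, sum_xx hx] at e1
    linarith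
  have hW : ∀ i, ∑ j, Ws C.H (C.U x) x i j * v j = X' i := by
    intro i
    rw [hMv i, hxv]
    ring
  obtain ⟨φ, hφ⟩ : ∃ φ, φ = ∑ j, pd j C.U x * v j := ⟨_, rfl⟩
  have hvel : ∀ i, vel C x v i = X' i + φ * x i := by
    intro i
    unfold vel
    rw [hW, hφ]
  have hh : ∑ i, vel C x v i * a i = 0 := h (WithLp.toLp 2 v) hxv
  have hφ' : φ = p := by
    have e1 : ∑ i, vel C x v i * a i = ∑ i, a i * X i + (φ - p) * ∑ i, x i * a i := by
      rw [Finset.mul_sum, ← Finset.sum_add_distrib]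
      refine Finset.sum_congr rfl fun i _ => ?_
      rw [hvel, hX']
      ring
    rw [hh, hX, zero_add] at e1
    have h2 := (mul_eq_zero.1 e1.symm).resolve_right h0
    linarith
  refine ⟨WithLp.toLp 2 v, hxv, ?_⟩
  funext i
  show vel C x v i = X i
  rw [hvel, hφ', hX']
  ring

/-- the two defining functions of the boundary -/
theorem compare (hS : IsSlice C lam V f D) (hx : ‖x‖ = 1) :
    ∃ (r : ℝ) (b : Fin n → ℝ), 0 < r ∧
      (∀ i, Stmt.pd i D.F (Y C.H x (C.U x)) =
        r * (Stmt.pd i f (Y C.H x (C.U x)) + Stmt.pd i lam (Y C.H x (C.U x)))) ∧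
      ∀ i j, Stmt.pd i (Stmt.pd j D.F) (Y C.H x (C.U x)) =
        r * (Stmt.pd i (Stmt.pd j f) (Y C.H x (C.U x)) +
          Stmt.pd i (Stmt.pd j lam) (Y C.H x (C.U x))) +
        (b i * (Stmt.pd j f (Y C.H x (C.U x)) + Stmt.pd j lam (Y C.H x (C.U x))) +
          (Stmt.pd i f (Y C.H x (C.U x)) + Stmt.pd i lam (Y C.H x (C.U x))) * b j) := by
  have hx0 := ne_zero_of_one hx
  obtain ⟨y, hy⟩ : ∃ y, y = Y C.H x (C.U x) := ⟨_, rfl⟩
  rw [← hy]
  have hyF : 0 ≤ D.F y := (mem_iff hS).2 ⟨x, C.U x, hx, le_refl _, hy.symm⟩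
  have hfs := hS.smf y hyF
  have hls := hS.smL y hyF
  have hFs : ContDiffAt ℝ ∞ D.F y := D.dom.1.contDiffAt
  have hlx : ∀ i, Stmt.pd i lam y = x i := by
    intro i
    rw [stmt_pd' hls, hy]
    exact pd_lam_Y hS hx (le_refl _) i
  obtain ⟨a, ha⟩ : ∃ a : Fin n → ℝ, a = fun i => Stmt.pd i f y + Stmt.pd i lam y := ⟨_, rfl⟩
  have hxa : ∑ i, x i * a i = 1 + dL lam f y := by
    unfold dL
    rw [ha, ← sum_xx hx, ← Finset.sum_add_distrib]
    refine Finset.sum_congr rfl fun i _ => ?_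
    show x i * (Stmt.pd i f y + Stmt.pd i lam y) = _
    rw [← stmt_pd' hfs, ← stmt_pd' hls, hlx]
    ring
  have hSp : 0 < ∑ i, x i * a i := by
    rw [hxa]
    exact dL_pos hS hyF
  obtain ⟨r, hr⟩ : ∃ r, r = (∑ i, x i * Stmt.pd i D.F y) / ∑ i, x i * a i := ⟨_, rfl⟩
  -- the function `G`
  obtain ⟨G, hG⟩ : ∃ G : E n → ℝ, G = fun z => D.F z - r * (f z + lam z) := ⟨_, rfl⟩
  have hGs : ContDiffAt ℝ ∞ G y := by
    rw [hG]
    exact hFs.sub (contDiffAt_const.mul (hfs.add hls))
  have hpdG : ∀ i, Stmt.pd i G =ᶠ[𝓝 y] fun z => Stmt.pd i D.F z - r * (Stmt.pd i f z + Stmt.pd i lam z) := by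
    intro i
    have h1 : ContDiffAt ℝ 1 f y := hfs.of_le (by exact_mod_cast le_top)
    have h2 : ContDiffAt ℝ 1 lam y := hls.of_le (by exact_mod_cast le_top)
    filter_upwards [h1.eventually (by simp), h2.eventually (by simp)] with z hzf hzl
    have h3 : DifferentiableAt ℝ D.F z := D.dom.1.contDiffAt.differentiableAt (by simp)
    have h4 : HP i (fun z => D.F z - r * (f z + lam z))
        (Stmt.pd i D.F z - (0 * (f z + lam z) + r * (Stmt.pd i f z + Stmt.pd i lam z))) z :=
      (HP.of_diff h3).sub ((HP.const i r z).mul ((HP.of_diff (hzf.differentiableAt one_ne_zero)).add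
        (HP.of_diff (hzl.differentiableAt one_ne_zero))))
    rw [hG, h4.pd]
    ring
  have hG1 : ∀ i, Stmt.pd i G y = Stmt.pd i D.F y - r * a i := by
    intro i
    rw [(hpdG i).self_of_nhds, ha]
  have hG2 : ∀ i j, Stmt.pd i (Stmt.pd j G) y = Stmt.pd i (Stmt.pd j D.F) y -
      r * (Stmt.pd i (Stmt.pd j f) y + Stmt.pd i (Stmt.pd j lam) y) := by
    intro i j
    rw [H375.pd_congr (hpdG j) i]
    have h4 := (HP.of_cd (H375.cd_pd hFs j)).sub ((HP.const i r y).mul
      ((HP.of_cd (k := i) (H375.cd_pd hfs j)).add (HP.of_cd (H375.cd_pd hls j))))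
    rw [h4.pd]
    ring
  -- along the curves
  have hyc : ∀ v : E n, sgm C (x + (0 : ℝ) • v) = y := by
    intro v
    rw [zero_smul, add_zero, sgm_one C hx, hy]
  have hev : ∀ v : E n, ∀ᶠ t in 𝓝 (0 : ℝ), x + t • v ≠ 0 := by
    intro v
    have h1 : Tendsto (fun t : ℝ => x + t • v) (𝓝 0) (𝓝 (x + (0 : ℝ) • v)) :=
      (continuous_const.add (continuous_id.smul continuous_const)).tendsto 0
    rw [zero_smul, add_zero] at h1
    exact h1.eventually (nhds_ne hx0)
  have hzG : ∀ v : E n, ∀ᶠ t in 𝓝 (0 : ℝ), G (sgm C (x + t • v)) = 0 := by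
    intro v
    filter_upwards [hev v] with t ht
    have h1 := sgm_bd hS ht
    rw [hG]
    show D.F _ - r * (f _ + lam _) = 0
    rw [h1.1, h1.2]
    ring
  have hzL : ∀ v : E n, ∀ᶠ t in 𝓝 (0 : ℝ), f (sgm C (x + t • v)) + lam (sgm C (x + t • v)) = 0 := by
    intro v
    filter_upwards [hev v] with t ht using (sgm_bd hS ht).2
  have hvG : ∀ v : E n, ∑ i, x i * v i = 0 →
      ∑ i, vel C x (fun i => v i) i * Stmt.pd i G y = 0 := by
    intro v hv
    have h1 := (curve C hx hv).2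
    have h2 : DifferentiableAt ℝ G ((fun t : ℝ => sgm C (x + t • v)) 0) := by
      show DifferentiableAt ℝ G (sgm C (x + (0 : ℝ) • v))
      rw [hyc v]
      exact hGs.differentiableAt (by simp)
    have h3 := H375.first h2 h1 (hzG v)
    simp only [hyc v] at h3
    exact h3
  have hva : ∀ v : E n, ∑ i, x i * v i = 0 → ∑ i, vel C x (fun i => v i) i * a i = 0 := by
    intro v hv
    have h1 := (curve C hx hv).2
    have h2 : DifferentiableAt ℝ (fun z => f z + lam z) ((fun t : ℝ => sgm C (x + t • v)) 0) := by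
      show DifferentiableAt ℝ (fun z => f z + lam z) (sgm C (x + (0 : ℝ) • v))
      rw [hyc v]
      exact (hfs.add hls).differentiableAt (by simp)
    have h3 := H375.first h2 h1 (hzL v)
    simp only [hyc v] at h3
    refine Eq.trans ?_ h3
    refine Finset.sum_congr rfl fun i _ => ?_
    have h4 : HP i (fun z => f z + lam z) (Stmt.pd i f y + Stmt.pd i lam y) y :=
      (HP.of_cd hfs).add (HP.of_cd hls)
    rw [h4.pd, ha]
  have hxG : ∑ i, x i * Stmt.pd i G y = 0 := by
    have h1 : ∑ i, x i * Stmt.pd i G y =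
        ∑ i, x i * Stmt.pd i D.F y - r * ∑ i, x i * a i := by
      rw [Finset.mul_sum, ← Finset.sum_sub_distrib]
      exact Finset.sum_congr rfl fun i _ => by rw [hG1]; ring
    rw [h1, hr, div_mul_cancel₀ _ hSp.ne', sub_self]
  have hG0 : ∀ i, Stmt.pd i G y = 0 := form_zero C hx hxG hvG
  -- the sign of `r`
  have hr0 : 0 ≤ r := by
    rw [hr]
    refine div_nonneg ?_ hSp.le
    have hc : HasDerivAt (fun s => Y C.H x s) x (C.U x) := by
      have h1 : (fun s => Y C.H x s) = fun s => Y C.H x 0 + s • x := by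
        funext s
        ext i
        simp [Y]
      rw [h1]
      simpa using ((hasDerivAt_id (C.U x)).smul_const x).const_add (Y C.H x 0)
    have hFd : DifferentiableAt ℝ D.F ((fun s => Y C.H x s) (C.U x)) :=
      D.dom.1.contDiffAt.differentiableAt (by simp)
    have h2 := H375.curve_deriv hFd hc
    have h3 : D.F (Y C.H x (C.U x)) = 0 := by
      have := (sgm_bd hS hx0).1
      rwa [sgm_one C hx] at this
    have h4 := h2.tendsto_slope
    have h5 : Tendsto (slope (fun s => D.F (Y C.H x s)) (C.U x)) (𝓝[>] (C.U x))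
        (𝓝 (∑ i, x i * Stmt.pd i D.F (Y C.H x (C.U x)))) :=
      h4.mono_left (nhdsWithin_mono _ fun s hs => ne_of_gt hs)
    rw [hy]
    refine ge_of_tendsto h5 ?_
    filter_upwards [self_mem_nhdsWithin] with s hs
    have hs' : C.U x < s := hs
    have h6 : 0 ≤ D.F (Y C.H x s) := (mem_iff hS).2 ⟨x, s, hx, hs'.le, rfl⟩
    rw [slope_def_field, h3, sub_zero]
    exact div_nonneg h6 (by linarith)
  have hr1 : r ≠ 0 := by
    intro h0
    obtain ⟨i, hi⟩ := D.dom.2.1 y (by
      have := (sgm_bd hS hx0).1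
      rwa [sgm_one C hx, ← hy] at this)
    have := hG0 i
    rw [hG1, h0, zero_mul, sub_zero] at this
    exact hi this
  -- second derivatives
  have hsy : ∀ i j, Stmt.pd i (Stmt.pd j G) y = Stmt.pd j (Stmt.pd i G) y := fun i j =>
    H375.pd_symm hGs i j
  obtain ⟨b, hb⟩ := H375.sym_plane (M := fun i j => Stmt.pd i (Stmt.pd j G) y) hsy (F := a)
    (Z := fun i => x i / ∑ i, x i * a i) (by
      have : ∑ i, a i * (x i / ∑ i, x i * a i) = (∑ i, x i * a i) / ∑ i, x i * a i := by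
        rw [Finset.sum_div]
        exact Finset.sum_congr rfl fun i _ => by ring
      rw [this, div_self hSp.ne'])
    (by
      intro X hX
      obtain ⟨v, hv, hvX⟩ := vel_surj C hx hSp.ne' hva hX
      obtain ⟨hc1, hc2⟩ := curve C hx hv
      have h1 : ContDiffAt ℝ ∞ G ((fun t : ℝ => sgm C (x + t • v)) 0) := by
        show ContDiffAt ℝ ∞ G (sgm C (x + (0 : ℝ) • v))
        rw [hyc v]
        exact hGs
      have h2 := H375.second h1 hc1 hc2 (hzG v) (by simp only [hyc v]; exact hG0)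
      simp only [hyc v] at h2
      rw [← hvX]
      exact h2)
  refine ⟨r, b, lt_of_le_of_ne hr0 (Ne.symm hr1), ?_, ?_⟩
  · intro i
    have := hG0 i
    rw [hG1, ha] at this
    linarith
  · intro i j
    have h1 := hb i j
    rw [hG2, ha] at h1
    linarith

end Vale.Agent.P366.KSN.X2
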